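import Mathlib

/-!
# Row 49 (helper27): finite probability weights, products, resampling of one coordinate
-/

set_option autoImplicit false
open Finset

namespace Crest.Agent.N49.L

variable {X Y ι : Type*} [Fintype X] [Fintype Y] [Fintype ι] [DecidableEq ι]

/-- probability weights -/
structure Pr (μ : X → ℝ) : Prop where
  nn : ∀ x, 0 ≤ μ x
  one : ∑ x, μ x = 1

/-- expectation -/
def Ex (μ : X → ℝ) (F : X → ℝ) : ℝ := ∑ x, μ x * F x

/-- product weights -/
def pw (μ : ι → X → ℝ) (y : ι → X) : ℝ := ∏ j, μ j (y j)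

variable {μ : X → ℝ} {ν : Y → ℝ} {F G : X → ℝ}

theorem Pr.pw {μ : ι → X → ℝ} (h : ∀ j, Pr (μ j)) : Pr (pw μ) :=
  ⟨fun _ => prod_nonneg fun j _ => (h j).nn _, by
    unfold L.pw
    rw [← Fintype.piFinset_univ, ← prod_univ_sum]
    exact prod_eq_one fun j _ => (h j).one⟩

theorem Ex_prod (μ : ι → X → ℝ) (F : ι → X → ℝ) :
    Ex (pw μ) (fun y => ∏ j, F j (y j)) = ∏ j, Ex (μ j) (F j) := by
  unfold Ex pw
  rw [prod_univ_sum, Fintype.piFinset_univ]
  exact sum_congr rfl fun y _ => prod_mul_distrib.symm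

theorem Pr.mono (h : Pr μ) (k : ∀ x, F x ≤ G x) : Ex μ F ≤ Ex μ G :=
  sum_le_sum fun x _ => mul_le_mul_of_nonneg_left (k x) (h.nn x)
theorem Pr.const (h : Pr μ) (c : ℝ) : Ex μ (fun _ => c) = c := by
  unfold Ex; rw [← sum_mul, h.one, one_mul]
theorem Pr.nonneg (h : Pr μ) (k : ∀ x, 0 ≤ F x) : 0 ≤ Ex μ F :=
  sum_nonneg fun x _ => mul_nonneg (h.nn x) (k x)
theorem Pr.le_of (h : Pr μ) {c : ℝ} (k : ∀ x, F x ≤ c) : Ex μ F ≤ c :=
  (h.mono k).trans_eq (h.const c)
theorem Ex_add : Ex μ (fun x => F x + G x) = Ex μ F + Ex μ G := by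
  unfold Ex; rw [← sum_add_distrib]; exact sum_congr rfl fun _ _ => mul_add ..
theorem Ex_sub : Ex μ (fun x => F x - G x) = Ex μ F - Ex μ G := by
  unfold Ex; rw [← sum_sub_distrib]; exact sum_congr rfl fun _ _ => mul_sub ..
theorem Ex_mul (c : ℝ) : Ex μ (fun x => c * F x) = c * Ex μ F := by
  unfold Ex; rw [mul_sum]; exact sum_congr rfl fun _ _ => mul_left_comm ..
theorem Ex_mul' (c : ℝ) : Ex μ (fun x => F x * c) = Ex μ F * c := by
  unfold Ex; rw [sum_mul]; exact sum_congr rfl fun _ _ => (mul_assoc ..).symm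
theorem Ex_sum {κ : Type*} (s : Finset κ) (F : κ → X → ℝ) :
    Ex μ (fun x => ∑ i ∈ s, F i x) = ∑ i ∈ s, Ex μ (F i) := by
  unfold Ex; rw [sum_comm]; exact sum_congr rfl fun _ _ => mul_sum ..
theorem Ex_comm (F : X → Y → ℝ) :
    Ex μ (fun x => Ex ν (F x)) = Ex ν fun y => Ex μ fun x => F x y := by
  unfold Ex; simp only [mul_sum]; rw [sum_comm]
  exact sum_congr rfl fun _ _ => sum_congr rfl fun _ _ => mul_left_comm ..

omit [Fintype X] in
theorem pw_update (μ : ι → X → ℝ) (y : ι → X) (i : ι) (v : X) :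
    pw μ (Function.update y i v) * μ i (y i) = pw μ y * μ i v := by
  unfold pw
  rw [← mul_prod_erase _ _ (mem_univ i), ← mul_prod_erase univ (fun j => μ j (y j)) (mem_univ i),
    Function.update_self, prod_congr rfl fun j hj => by
      rw [Function.update_of_ne (ne_of_mem_erase hj)]]
  ring

/-- resampling of the coordinate `i` -/
theorem Ex_update {μ : ι → X → ℝ} {i : ι} (h : Pr (μ i)) (F : (ι → X) → ℝ) :
    Ex (pw μ) F = Ex (pw μ) fun y => Ex (μ i) fun v => F (Function.update y i v) := by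
  have a : Ex (pw μ) F = ∑ p : (ι → X) × X, pw μ p.1 * μ i p.2 * F p.1 := by
    rw [Fintype.sum_prod_type]
    refine sum_congr rfl fun y _ => ?_
    simp only [← sum_mul, ← mul_sum, h.one, mul_one]
  have b : (Ex (pw μ) fun y => Ex (μ i) fun v => F (Function.update y i v)) =
      ∑ p : (ι → X) × X, pw μ p.1 * μ i p.2 * F (Function.update p.1 i p.2) := by
    rw [Fintype.sum_prod_type]
    refine sum_congr rfl fun y _ => ?_
    simp only [Ex, mul_sum, mul_assoc]
  rw [a, b]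
  have inv : Function.Involutive fun p : (ι → X) × X => (Function.update p.1 i p.2, p.1 i) :=
    fun p => by simp
  refine (Fintype.sum_bijective _ inv.bijective _ _ fun p => ?_).symm
  simp only [pw_update]

/-- one coordinate of a product -/
theorem Ex_coord {μ : ι → X → ℝ} (h : ∀ j, Pr (μ j)) (i : ι) (F : X → ℝ) :
    Ex (pw μ) (fun y => F (y i)) = Ex (μ i) F := by
  rw [Ex_update (h i)]; simp only [Function.update_self]; exact (Pr.pw h).const _

/-- two coordinates of a product -/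
theorem Ex_two {μ : ι → X → ℝ} (h : ∀ j, Pr (μ j)) {i j : ι} (ne : i ≠ j) (F G : X → ℝ) :
    Ex (pw μ) (fun y => F (y i) * G (y j)) = Ex (μ i) F * Ex (μ j) G := by
  rw [Ex_update (h i)]
  simp only [Function.update_self, Function.update_of_ne ne.symm, Ex_mul']
  rw [Ex_mul, Ex_coord h]

/-- weighted Jensen -/
theorem Pr.jensen (h : Pr μ) {R T : X → ℝ} (hR : ∀ x, 0 ≤ R x) {Q : ℕ} (hQ : Even (Q + 1)) :
    Ex μ (fun x => R x * T x) ^ (Q + 1) ≤ Ex μ R ^ Q * Ex μ fun x => R x * T x ^ (Q + 1) := by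
  rcases (h.nonneg hR).eq_or_lt with e | e
  · have z : ∀ x, μ x * R x = 0 := fun x =>
      (sum_eq_zero_iff_of_nonneg fun x _ => mul_nonneg (h.nn x) (hR x)).1 e.symm x (mem_univ _)
    simp [Ex, ← mul_assoc, z]
  · have := Real.pow_arith_mean_le_arith_mean_pow_of_even univ (fun x => μ x * R x / Ex μ R) T
      (fun x _ => div_nonneg (mul_nonneg (h.nn x) (hR x)) e.le)
      (by rw [← sum_div]; exact div_self e.ne') hQ
    simp only [div_mul_eq_mul_div, ← sum_div, mul_assoc] at this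
    rw [div_pow, div_le_div_iff₀ (pow_pos e _) e, pow_succ (Ex μ R), ← mul_assoc] at this
    rw [mul_comm]
    exact le_of_mul_le_mul_right this e

end Crest.Agent.N49.L
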