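import Crest.Agent.N49.L.Ex

/-!
# Row 49 (helper27): grid counts, the Gowers-Hölder inequality, one step of the Hölder chain
-/

set_option autoImplicit false
open Finset Function

namespace Crest.Agent.N49.L

variable {X ι : Type*} [Fintype X] [Fintype ι] [DecidableEq ι] {q : ℕ}

/-- the law of a grid with `q + 2` copies of every coordinate -/
def gw (q : ℕ) (μ : ι → X → ℝ) : (ι → Fin (q + 2) → X) → ℝ := pw fun j => pw fun _ => μ j
/-- a point of the grid -/
def pt (y : ι → Fin (q + 2) → X) (e : ι → Fin (q + 2)) : ι → X := fun j => y j (e j)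
/-- the count of the pattern `T` -/
def Cnt (μ : ι → X → ℝ) (H : (ι → X) → ℝ) (T : Finset (ι → Fin (q + 2))) : ℝ :=
  Ex (gw q μ) fun y => ∏ e ∈ T, H (pt y e)
/-- the full grid in the directions `S` -/
def P (q : ℕ) (S : Finset ι) : Finset (ι → Fin (q + 2)) := univ.filter fun e => ∀ j ∉ S, e j = 0
/-- the slice `l` of `T`, repeated in the direction `j` -/
def rep (T : Finset (ι → Fin (q + 2))) (j : ι) (l : Fin (q + 2)) : Finset (ι → Fin (q + 2)) :=
  univ.filter fun e => update e j l ∈ T
/-- `f` does not depend on the coordinate `i` -/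
def Om (f : (ι → X) → ℝ) (i : ι) : Prop := ∀ x v, f (update x i v) = f x

variable {μ : ι → X → ℝ} {H f : (ι → X) → ℝ} {T : Finset (ι → Fin (q + 2))} {S : Finset ι} {i j : ι}
  {l : Fin (q + 2)}

theorem pr_gw (h : ∀ j, Pr (μ j)) : Pr (gw q μ) := Pr.pw fun j => Pr.pw fun _ => h j

omit [Fintype X] [Fintype ι] in
theorem pt_update (y : ι → Fin (q + 2) → X) (j : ι) (v : Fin (q + 2) → X) (e : ι → Fin (q + 2)) :
    pt (update y j v) e = update (pt y e) j (v (e j)) := by
  funext i; by_cases c : i = j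
  · subst c; simp [pt]
  · simp [pt, update_of_ne c]

omit [Fintype X] [Fintype ι] in
theorem upd_pt (y : ι → Fin (q + 2) → X) (j : ι) (l : Fin (q + 2)) (e : ι → Fin (q + 2)) (x : X) :
    update (pt y (update e j l)) j x = update (pt y e) j x := by
  funext i; by_cases c : i = j
  · subst c; simp
  · simp [pt, update_of_ne c]

theorem mem_P {e : ι → Fin (q + 2)} : e ∈ P q S ↔ ∀ j ∉ S, e j = 0 := by simp [P]
theorem mem_rep {e : ι → Fin (q + 2)} : e ∈ rep T j l ↔ update e j l ∈ T := by simp [rep]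
theorem P_mono {S' : Finset ι} (h : S ⊆ S') : P q S ⊆ P q S' :=
  fun _ k => mem_P.2 fun j c => mem_P.1 k j fun m => c (h m)
theorem P_empty : P q (∅ : Finset ι) = {0} := by
  ext e; simp [mem_P, funext_iff]

theorem prod_rep {M : Type*} [CommMonoid M] (G : (ι → Fin (q + 2)) → M) :
    ∏ e ∈ rep T j l, G e = ∏ l', ∏ e ∈ T.filter (· j = l), G (update e j l') := by
  rw [← prod_product' (f := fun l' e => G (update e j l'))]
  refine prod_nbij' (fun e => (e j, update e j l)) (fun p => update p.2 j p.1) ?_ ?_ ?_ ?_ ?_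
  · intro e he; simpa [mem_rep] using he
  · intro p hp
    obtain ⟨-, a⟩ := mem_product.1 hp
    obtain ⟨a, b⟩ := mem_filter.1 a
    rw [mem_rep, update_idem, ← b, update_eq_self]; exact a
  · intro e _; simp
  · intro p hp
    obtain ⟨-, b⟩ := mem_filter.1 (mem_product.1 hp).2
    simp [← b]
  · intro e _; simp

theorem rep_P (h : i ∉ S) : rep (P q S) i 0 = P q (insert i S) ∧
    (P q S).filter (· i = 0) = P q S := by
  refine ⟨?_, filter_true_of_mem fun e he => mem_P.1 he i h⟩
  ext e
  simp only [mem_rep, mem_P, mem_insert, not_or]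
  refine ⟨fun k j c => by simpa [update_of_ne c.1] using k j c.2, fun k j c => ?_⟩
  by_cases d : j = i
  · subst d; simp
  · rw [update_of_ne d]; exact k j ⟨d, c⟩

theorem card_P_insert (h : i ∉ S) : #(P q (insert i S)) = #(P q S) * (q + 2) := by
  have := prod_rep (T := P q S) (j := i) (l := 0) fun _ => Multiplicative.ofAdd (1 : ℕ)
  rw [(rep_P h).1, (rep_P h).2] at this
  simpa [← ofAdd_nsmul, mul_comm] using congrArg Multiplicative.toAdd this

theorem card_P (S : Finset ι) : #(P q S) = (q + 2) ^ #S := by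
  induction S using Finset.induction_on with
  | empty => simp [P_empty]
  | insert i S h ih => rw [card_P_insert h, ih, card_insert_of_notMem h, pow_succ]

/-- the average of one slice -/
def sl (μ : ι → X → ℝ) (H : (ι → X) → ℝ) (T : Finset (ι → Fin (q + 2))) (j : ι) (l : Fin (q + 2))
    (y : ι → Fin (q + 2) → X) : ℝ :=
  Ex (μ j) fun x => ∏ e ∈ T.filter (· j = l), H (update (pt y e) j x)

theorem Cnt_sl (h : ∀ j, Pr (μ j)) (j : ι) :
    Cnt μ H T = Ex (gw q μ) fun y => ∏ l, sl μ H T j l y := by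
  unfold Cnt gw
  rw [Ex_update (i := j) (Pr.pw fun _ => h j)]
  refine congrArg _ (funext fun y => ?_)
  unfold sl
  rw [← Ex_prod fun _ => μ j]
  refine congrArg _ (funext fun v => ?_)
  rw [← prod_fiberwise T (· j)]
  exact prod_congr rfl fun l _ => prod_congr rfl fun e he => by
    rw [pt_update, (mem_filter.1 he).2]

theorem Cnt_rep (h : ∀ j, Pr (μ j)) :
    Cnt μ H (rep T j l) = Ex (gw q μ) fun y => sl μ H T j l y ^ (q + 2) := by
  unfold Cnt gw
  rw [Ex_update (i := j) (Pr.pw fun _ => h j)]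
  refine congrArg _ (funext fun y => ?_)
  have : sl μ H T j l y ^ (q + 2) = ∏ _l : Fin (q + 2), sl μ H T j l y := by simp
  rw [this]
  unfold sl
  rw [← Ex_prod fun _ => μ j]
  refine congrArg _ (funext fun v => ?_)
  rw [prod_rep]
  exact prod_congr rfl fun l _ => prod_congr rfl fun e _ => by
    rw [pt_update, update_self, upd_pt]

theorem amgm {n : ℕ} (τ : Fin (n + 1) → ℝ) (h : ∀ l, 0 ≤ τ l) :
    ∏ l, τ l ≤ ∑ l, ((n + 1 : ℕ) : ℝ)⁻¹ * τ l ^ (n + 1) := by
  have := Real.geom_mean_le_arith_mean_weighted univ (fun _ : Fin (n + 1) => ((n + 1 : ℕ) : ℝ)⁻¹)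
    (fun l => τ l ^ (n + 1)) (fun _ _ => by positivity)
    (by rw [sum_const, card_univ, Fintype.card_fin, nsmul_eq_mul, mul_inv_cancel₀ (by positivity)])
    fun l _ => pow_nonneg (h l) _
  simpa only [Real.pow_rpow_inv_natCast (h _) (Nat.succ_ne_zero n)] using this

theorem gh0 (h : ∀ j, Pr (μ j)) (hf : ∀ x, 0 ≤ f x) {U : Finset ι} (hU : Cnt μ f (P q U) ≤ 1)
    (S : Finset ι) : ∀ T ⊆ P q U, (∀ j ∈ U, j ∉ S → ∀ e ∈ T, ∀ l, update e j l ∈ T) →
      Cnt μ f T ≤ 1 := by
  induction S using Finset.induction_on with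
  | empty =>
    intro T hT k
    rcases T.eq_empty_or_nonempty with rfl | ⟨e0, h0⟩
    · exact (pr_gw h).le_of fun _ => by simp
    · refine (congrArg _ (hT.antisymm fun e he => ?_)).trans_le hU
      have a : ∀ W ⊆ U, W.piecewise e e0 ∈ T := fun W => by
        induction W using Finset.induction_on with
        | empty => intro _; simpa using h0
        | insert j W _ ih =>
          intro c
          rw [piecewise_insert]
          exact k j (c (mem_insert_self _ _)) (notMem_empty _) _
            (ih ((subset_insert _ _).trans c)) _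
      convert a U Subset.rfl using 1
      funext j
      by_cases c : j ∈ U
      · rw [piecewise_eq_of_mem _ _ _ c]
      · rw [piecewise_eq_of_notMem _ _ _ c, mem_P.1 he j c, mem_P.1 (hT h0) j c]
  | insert j S _ ih =>
    intro T hT k
    by_cases c : j ∈ U
    swap
    · exact ih T hT fun i a b => k i a fun m => (mem_insert.1 m).elim (fun e => c (e ▸ a)) b
    rw [Cnt_sl h j]
    refine ((pr_gw h).mono fun y => amgm _ fun l =>
      (h j).nonneg fun _ => prod_nonneg fun _ _ => hf _).trans ?_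
    rw [Ex_sum]
    simp only [Ex_mul]
    refine (sum_le_sum fun l _ => mul_le_of_le_one_right (inv_nonneg.2 (Nat.cast_nonneg _))
      ((Cnt_rep h).symm.trans_le <| ih _ (fun e he => mem_P.2 fun i a => ?_) fun i a b e he l' => ?_)).trans_eq ?_
    · simpa [update_of_ne fun d : i = j => a (d ▸ c)] using mem_P.1 (hT (mem_rep.1 he)) i a
    · rw [mem_rep] at he ⊢
      by_cases d : i = j
      · rw [d, update_idem]; exact he
      · rw [update_comm d]
        exact k i a (fun m => (mem_insert.1 m).elim d b) _ he _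
    · rw [sum_const, card_univ, Fintype.card_fin, nsmul_eq_mul, mul_inv_cancel₀ (by positivity)]

theorem Cnt_smul (c : ℝ) : Cnt μ (fun x => c * f x) T = c ^ #T * Cnt μ f T := by
  unfold Cnt; simp only [prod_mul_distrib, prod_const, Ex_mul]

/-- **Gowers-Hölder**: sub-patterns of the grid -/
theorem gh (h : ∀ j, Pr (μ j)) (hf : ∀ x, 0 ≤ f x) {U : Finset ι} {c : ℝ} (hc : 0 < c)
    (hU : Cnt μ f (P q U) ≤ c ^ #(P q U)) (hT : T ⊆ P q U) : Cnt μ f T ≤ c ^ #T := by
  have := gh0 (f := fun x => c⁻¹ * f x) h (fun x => mul_nonneg (inv_nonneg.2 hc.le) (hf x))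
    (by rw [Cnt_smul, inv_pow, inv_mul_le_iff₀ (pow_pos hc _), mul_one]; exact hU) U T hT
    fun j a b => absurd a b
  rwa [Cnt_smul, inv_pow, inv_mul_le_iff₀ (pow_pos hc _), mul_one] at this

/-- **one step of the chain** -/
theorem step (h : ∀ j, Pr (μ j)) (hq : Even q) (hi : i ∉ S) (o : Om f i) (hf : ∀ x, 0 ≤ f x)
    {B : ℝ} (hB : ∀ x, f x ≤ B) :
    Cnt μ (fun x => f x * H x) (P q S) ^ (q + 2) ≤
      Cnt μ f (P q S) ^ (q + 1) * (B ^ #(P q S) * Cnt μ H (P q (insert i S))) := by
  have a : Cnt μ (fun x => f x * H x) (P q S) =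
      Ex (gw q μ) fun y => (∏ e ∈ P q S, f (pt y e)) * sl μ H (P q S) i 0 y := by
    unfold Cnt gw
    rw [Ex_update (i := i) (Pr.pw fun _ => h i)]
    refine congrArg _ (funext fun y => ?_)
    unfold sl
    rw [(rep_P hi).2, ← Ex_coord (fun _ : Fin (q + 2) => h i) 0, ← Ex_mul]
    refine congrArg _ (funext fun v => ?_)
    rw [← prod_mul_distrib]
    exact prod_congr rfl fun e he => by rw [pt_update, mem_P.1 he i hi]; dsimp only; rw [o]
  have ev : Even (q + 1 + 1) := hq.add (by decide : Even 2)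
  rw [a, ← (rep_P hi).1, Cnt_rep h, ← Ex_mul]
  refine ((pr_gw h).jensen (fun _ => prod_nonneg fun _ _ => hf _) ev).trans
    (mul_le_mul_of_nonneg_left ((pr_gw h).mono fun y => mul_le_mul_of_nonneg_right ?_
      (ev.pow_nonneg _)) (pow_nonneg ((pr_gw h).nonneg fun _ => prod_nonneg fun _ _ => hf _) _))
  rw [← prod_const]
  exact prod_le_prod (fun _ _ => hf _) fun _ _ => hB _

end Crest.Agent.N49.L
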