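import Crest.Agent.N49.L.Refl

/-!
# Row 49 (helper27): (L) with a passive coordinate of arbitrary type
-/

set_option autoImplicit false
open Finset Function

namespace Crest.Agent.N49.L

variable {X Y ι : Type*} [Fintype X] [Fintype Y] [Fintype ι] [DecidableEq ι] {q : ℕ}

/-- push-forward of product weights -/
theorem Ex_map {μ : ι → X → ℝ} {ν : ι → Y → ℝ} (g : Y → X)
    (h : ∀ j F, Ex (ν j) (fun y => F (g y)) = Ex (μ j) F) (Φ : (ι → X) → ℝ) :
    Ex (pw ν) (fun y => Φ fun j => g (y j)) = Ex (pw μ) Φ := by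
  classical
  have a : ∀ x, Φ x = ∑ z : ι → X, Φ z * ∏ j, if x j = z j then (1 : ℝ) else 0 := fun x => by
    simp only [prod_boole, mem_univ, forall_true_left]
    simp only [← funext_iff, mul_ite, mul_one, mul_zero, sum_ite_eq, mem_univ, if_true]
  rw [funext fun y : ι → Y => a fun j => g (y j), Ex_sum]
  refine sum_congr rfl fun z _ => ?_
  rw [Ex_mul, mul_comm]
  refine congrArg (· * Φ z) ((Ex_prod _ fun j (v : Y) =>
    if g v = z j then (1 : ℝ) else 0).trans (prod_congr rfl fun j _ => ?_))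
  rw [h j fun x => if x = z j then (1 : ℝ) else 0]
  simp [Ex]

theorem Ex_option (μ : Option ι → X → ℝ) (Φ : (Option ι → X) → ℝ) :
    Ex (pw μ) Φ =
      Ex (μ none) fun a => Ex (pw fun j => μ (some j)) fun y => Φ fun o => o.elim a y := by
  unfold Ex
  simp only [mul_sum]
  rw [← Fintype.sum_prod_type']
  refine Fintype.sum_equiv Equiv.piOptionEquivProd _ _ fun x => ?_
  have : (fun o : Option ι => o.elim (x none) fun j => x (some j)) = x := by
    funext o; cases o <;> rfl
  simp only [pw, Fintype.prod_option, Equiv.piOptionEquivProd_apply, this, mul_assoc]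

theorem Ex_fst {μ : X → ℝ} {π : Y → ℝ} (h : Pr π) (F : X → ℝ) :
    Ex (fun p : X × Y => μ p.1 * π p.2) (fun p => F p.1) = Ex μ F := by
  unfold Ex
  rw [Fintype.sum_prod_type]
  refine sum_congr rfl fun x _ => ?_
  simp only [← sum_mul, ← mul_sum, h.one, mul_one]

theorem Ex_snd {μ : X → ℝ} {π : Y → ℝ} (h : Pr μ) (F : Y → ℝ) :
    Ex (fun p : X × Y => μ p.1 * π p.2) (fun p => F p.2) = Ex π F := by
  unfold Ex
  rw [Fintype.sum_prod_type]
  simp only [mul_assoc, ← mul_sum, ← sum_mul, h.one, one_mul]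

theorem Pr.prod {μ : X → ℝ} {π : Y → ℝ} (h : Pr μ) (k : Pr π) :
    Pr fun p : X × Y => μ p.1 * π p.2 :=
  ⟨fun _ => mul_nonneg (h.nn _) (k.nn _), by
    rw [Fintype.sum_prod_type]; simp only [← mul_sum, ← sum_mul, h.one, k.one, one_mul]⟩

/-- the law with one more, passive, letter -/
def om (μ₀ : X → ℝ) (μ : ι → X → ℝ) (π : Y → ℝ) (o : Option ι) (p : X × Y) : ℝ :=
  o.elim μ₀ μ p.1 * π p.2

/-- a function of the letters and of the passive letter -/
def ol (H : Y → (ι → X) → ℝ) (x : Option ι → X × Y) : ℝ := H (x none).2 fun j => (x (some j)).1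

theorem Cnt_om {μ₀ : X → ℝ} {μ : ι → X → ℝ} {π : Y → ℝ} (h₀ : Pr μ₀) (k : Pr π)
    (H : Y → (ι → X) → ℝ) (S : Finset ι) :
    Cnt (om μ₀ μ π) (ol H) (P q (S.map .some)) = Ex π fun p => Cnt μ (H p) (P q S) := by
  have a : ∀ y : Option ι → Fin (q + 2) → X × Y, ∏ e ∈ P q (S.map .some), ol H (pt y e) =
      ∏ e ∈ P q S, H (y none 0).2 (pt (fun j l => (y (some j) l).1) e) := fun y => by
    refine (prod_nbij' (fun e o => o.elim 0 e) (fun e j => e (some j)) ?_ ?_ ?_ ?_ ?_).symm
    · intro e he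
      refine mem_P.2 fun o ho => ?_
      cases o with
      | none => rfl
      | some j => exact mem_P.1 he j fun c => ho (mem_map_of_mem _ c)
    · intro e he
      exact mem_P.2 fun j hj => mem_P.1 he _ (by simpa using hj)
    · intro e _; rfl
    · intro e he
      funext o
      cases o with
      | none => exact (mem_P.1 he none (by simp)).symm
      | some j => rfl
    · intro e _; rfl
  unfold Cnt gw
  simp only [a]
  rw [Ex_option, ← Ex_snd (π := π) h₀, ← Ex_coord (fun _ : Fin (q + 2) => h₀.prod k) 0]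
  refine congrArg _ (funext fun v => ?_)
  exact Ex_map (μ := fun j => pw fun _ : Fin (q + 2) => μ j)
    (ν := fun j => pw fun _ : Fin (q + 2) => om μ₀ μ π (some j)) (fun v l => (v l).1)
    (fun j F => Ex_map Prod.fst (fun _ F => Ex_fst k F) F) fun y => ∏ e ∈ P q S, H (v 0).2 (pt y e)

/-- (L) with a finite passive coordinate -/
theorem lower_fin [Nonempty ι] {μ : ι → X → ℝ} (hμ : ∀ j, Pr (μ j)) {π : Y → ℝ} (k : Pr π)
    (hq : Even q) {c η : ℝ} (hc : 1 ≤ c) {F : ι → Y → (ι → X) → ℝ} (ho : ∀ i p, Om (F i p) i)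
    (h0 : ∀ i p x, 0 ≤ F i p x) (h1 : ∀ i p x, F i p x ≤ c ^ (q + 2))
    (hη : c ^ (2 * Fintype.card ι) ≤ 1 + η) (hm : ∀ i, 1 - η ≤ Ex π fun p => Ex (pw μ) (F i p))
    (hg : ∀ i, (Ex π fun p => Cnt μ (F i p) (P q (univ.erase i))) ≤
      c ^ (q + 2) ^ (Fintype.card ι - 1)) :
    1 - 20 ^ Fintype.card ι * η ≤ Ex π fun p => Ex (pw μ) fun x => ∏ i, F i p x := by
  have h₀ := hμ (Classical.arbitrary ι)
  have pr : ∀ o, Pr (om (μ (Classical.arbitrary ι)) μ π o) := fun o => by
    cases o with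
    | none => exact h₀.prod k
    | some j => exact (hμ j).prod k
  have e0 : ∀ H : Y → (ι → X) → ℝ, Ex (pw (om (μ (Classical.arbitrary ι)) μ π)) (ol H) =
      Ex π fun p => Ex (pw μ) (H p) := fun H => by
    have := Cnt_om (q := q) (μ := μ) h₀ k H ∅
    simpa only [map_empty, Cnt_empty pr, Cnt_empty hμ] using this
  have S : Sm q (om (μ (Classical.arbitrary ι)) μ π) (univ.map .some)
      (fun o => o.elim (fun _ => 1) fun i => ol (F i)) c := by
    refine ⟨pr, hq, hc, ?_, ?_, ?_, ?_⟩ <;> intro o h <;> obtain ⟨i, -, rfl⟩ := mem_map.1 h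
    · intro x v
      have : (fun j => (update x (some i) v (some j)).1) =
          update (fun j => (x (some j)).1) i v.1 := by
        funext j
        by_cases d : j = i
        · subst d; simp
        · simp [update_of_ne d, update_of_ne ((Option.some_injective ι).ne d)]
      change F i _ _ = F i _ _
      rw [Embedding.some_apply, this, ho, update_of_ne (by simp)]
    · exact fun x => h0 _ _ _
    · exact fun x => h1 _ _ _
    · rw [← map_erase, card_P, card_map, card_erase_of_mem (mem_univ i), card_univ]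
      exact (Cnt_om h₀ k (F i) _).trans_le (hg i)
  have := S.lower (η := η) (by rwa [card_map, card_univ]) (fun o h => by
    obtain ⟨i, -, rfl⟩ := mem_map.1 h
    exact (hm i).trans_eq (e0 (F i)).symm) _ Subset.rfl
  rw [card_map, card_univ, Lam] at this
  simp only [prod_map] at this
  exact this.trans_eq (e0 fun p x => ∏ i, F i p x)

/-- push-forward of a summable weight to a finite type -/
theorem exists_push {Ω : Type*} {w : Ω → ℝ} (h0 : ∀ ω, 0 ≤ w ω) (h1 : HasSum w 1) (g : Ω → Y) :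
    ∃ π : Y → ℝ, Pr π ∧ ∀ G : Y → ℝ, HasSum (fun ω => w ω * G (g ω)) (Ex π G) := by
  classical
  have s : ∀ p, Summable fun ω => if g ω = p then w ω else 0 := fun p =>
    Summable.of_nonneg_of_le (fun ω => by split_ifs; exacts [h0 ω, le_rfl])
      (fun ω => by split_ifs; exacts [le_rfl, h0 ω]) h1.summable
  have a : ∀ G : Y → ℝ, HasSum (fun ω => w ω * G (g ω))
      (Ex (fun p => ∑' ω, if g ω = p then w ω else 0) G) := fun G => by
    have := hasSum_sum (s := univ) fun p _ => (s p).hasSum.mul_right (G p)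
    simp only [ite_mul, zero_mul, sum_ite_eq, mem_univ, if_true] at this
    simpa only [Ex, ite_mul] using this
  refine ⟨_, ⟨fun p => tsum_nonneg fun ω => by split_ifs; exacts [h0 ω, le_rfl], ?_⟩, a⟩
  have := a fun _ => 1
  simp only [mul_one, Ex] at this
  exact this.unique h1

/-- **(L) with a passive coordinate** `ω` of arbitrary type, functions with finitely many values -/
theorem lower_pass [Nonempty ι] {Ω : Type*} {w : Ω → ℝ} (w0 : ∀ ω, 0 ≤ w ω) (w1 : HasSum w 1)
    {μ : ι → X → ℝ} (hμ : ∀ j, Pr (μ j)) (hq : Even q) {c η : ℝ} (hc : 1 ≤ c)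
    {F : ι → Ω → (ι → X) → ℝ} (V : Finset ℝ) (hV : ∀ i ω x, F i ω x ∈ V)
    (ho : ∀ i ω, Om (F i ω) i) (h0 : ∀ i ω x, 0 ≤ F i ω x) (h1 : ∀ i ω x, F i ω x ≤ c ^ (q + 2))
    (hη : c ^ (2 * Fintype.card ι) ≤ 1 + η)
    (hm : ∀ i, 1 - η ≤ ∑' ω, w ω * Ex (pw μ) (F i ω))
    (hg : ∀ i, ∑' ω, w ω * Cnt μ (F i ω) (P q (univ.erase i)) ≤
      c ^ (q + 2) ^ (Fintype.card ι - 1)) :
    1 - 20 ^ Fintype.card ι * η ≤ ∑' ω, w ω * Ex (pw μ) fun x => ∏ i, F i ω x := by
  classical
  have fin : (Set.range fun ω i => F i ω).Finite :=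
    (Set.Finite.pi' fun _ : ι => Set.Finite.pi' fun _ : ι → X => V.finite_toSet).subset (by
      rintro _ ⟨ω, rfl⟩ i x; exact hV i ω x)
  let _ := fin.fintype
  obtain ⟨π, k, a⟩ := exists_push (Y := Set.range fun ω i => F i ω) w0 w1 fun ω => ⟨_, ω, rfl⟩
  refine (lower_fin hμ k hq hc (F := fun i p => p.1 i) ?_ ?_ ?_ hη (fun i => ?_)
    fun i => ?_).trans_eq (a _).tsum_eq.symm
  · rintro i ⟨_, ω, rfl⟩; exact ho i ω
  · rintro i ⟨_, ω, rfl⟩; exact h0 i ω
  · rintro i ⟨_, ω, rfl⟩; exact h1 i ω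
  · exact (hm i).trans_eq (a fun p => Ex (pw μ) (p.1 i)).tsum_eq
  · exact (a fun p => Cnt μ (p.1 i) (P q (univ.erase i))).tsum_eq.symm.trans_le (hg i)

end Crest.Agent.N49.L
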