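import Crest.Agent.N49.L.Grid

/-!
# Row 49 (helper27): small grid norms force many copies (helper38's reflection trick)
-/

set_option autoImplicit false
open Finset Function

namespace Crest.Agent.N49.L

variable {X ι : Type*} [Fintype X] [Fintype ι] [DecidableEq ι] {q : ℕ}
variable {μ : ι → X → ℝ} {f g : (ι → X) → ℝ} {Z U : Finset ι} {a b : ι} {c : ℝ}

/-- the square of one tensor -/
theorem half (h : ∀ j, Pr (μ j)) (hf : ∀ x, 0 ≤ f x) (hc : 0 < c)
    (hU : Cnt μ f (P q U) ≤ c ^ #(P q U)) (hZ : Z ⊆ U) (hb : b ∈ U) (hb' : b ∉ Z)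
    {α : Fin 2 → ℝ → ℝ} (hα : ∀ u v, ∑ s, α s u * α s v = 1 + u * v / 4) :
    Ex (gw q μ) (fun y => ∑ σ : P q Z → Fin 2, Ex (μ b) (fun x =>
      ∏ e : P q Z, α (σ e) (f (update (pt y e) b x))) ^ 2) ≤ (1 + c ^ 2 / 4) ^ #(P q Z) := by
  have n01 : (0 : Fin (q + 2)) ≠ 1 := zero_ne_one
  have A : Ex (gw q μ) (fun y => ∑ σ : P q Z → Fin 2, Ex (μ b) (fun x =>
      ∏ e : P q Z, α (σ e) (f (update (pt y e) b x))) ^ 2) =
      Ex (gw q μ) fun y => ∏ e ∈ P q Z, (1 + 4⁻¹ * (f (pt y e) * f (pt y (update e b 1)))) := by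
    unfold gw
    rw [Ex_update (i := b) (Pr.pw fun _ => h b) fun y => ∏ e ∈ P q Z, _]
    refine congrArg _ (funext fun y => ?_)
    simp only [sq, ← Ex_two (fun _ : Fin (q + 2) => h b) n01, ← Ex_sum, ← prod_mul_distrib]
    refine congrArg _ (funext fun v => ?_)
    rw [← Fintype.piFinset_univ, ← prod_univ_sum (fun _ => univ) fun (e : P q Z) s =>
      α s (f (update (pt y e) b (v 0))) * α s (f (update (pt y e) b (v 1))),
      ← prod_coe_sort (P q Z)]
    refine prod_congr rfl fun e _ => ?_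
    rw [hα, pt_update, pt_update, update_self, upd_pt, mem_P.1 e.2 b hb']
    ring
  rw [A]
  have B : (1 + c ^ 2 / 4) ^ #(P q Z) = ∑ T ∈ (P q Z).powerset, ∏ _e ∈ T, c ^ 2 / 4 := by
    rw [← prod_one_add, prod_const]
  simp only [prod_one_add, Ex_sum, B]
  refine sum_le_sum fun T hT => ?_
  have hT := mem_powerset.1 hT
  have z : ∀ e ∈ T, e b = 0 := fun e he => mem_P.1 (hT he) b hb'
  have inj : Set.InjOn (fun e : ι → Fin (q + 2) => update e b 1) T := fun e he e' he' k => by
    have := congrArg (update · b 0) k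
    simp only [update_idem] at this
    rwa [← z e he, update_eq_self, z e he, ← z e' he', update_eq_self] at this
  have dj : Disjoint T (T.image fun e => update e b 1) := disjoint_left.2 fun e he k => by
    obtain ⟨e', -, rfl⟩ := mem_image.1 k
    exact n01 ((z _ he).symm.trans (update_self ..))
  have := gh h hf hc hU (T := T ∪ T.image fun e => update e b 1) (union_subset
    (hT.trans (P_mono hZ)) (image_subset_iff.2 fun e he => mem_P.2 fun j k => by
      rw [update_of_ne fun d : j = b => k (d ▸ hb)]; exact mem_P.1 (P_mono hZ (hT he)) j k))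
  rw [card_union_of_disjoint dj, card_image_of_injOn inj] at this
  simp only [Cnt, prod_union dj, prod_image inj] at this
  simp only [prod_mul_distrib, prod_const, Ex_mul]
  rw [div_eq_inv_mul, mul_pow, ← pow_mul, two_mul]
  exact mul_le_mul_of_nonneg_left this (by positivity)

/-- the kernel -/
noncomputable def M2 (u v : ℝ) : ℝ := 3 / 5 + 2 / 5 * u + 2 / 5 * v - 3 / 20 * (u * v)

/-- the end of the chain -/
theorem last (h : ∀ j, Pr (μ j)) (hf : ∀ x, 0 ≤ f x) (hg : ∀ x, 0 ≤ g x) (hc : 0 < c)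
    {U' : Finset ι} (hU : Cnt μ f (P q U) ≤ c ^ #(P q U)) (hU' : Cnt μ g (P q U') ≤ c ^ #(P q U'))
    (hZ : Z ⊆ U) (hZ' : Z ⊆ U') (hb : b ∈ U) (ha : a ∈ U') (hb' : b ∉ Z) (ha' : a ∉ Z)
    (ne : a ≠ b) (of : Om f a) (og : Om g b) :
    Cnt μ (fun x => M2 (f x) (g x)) (P q Z) ≤ (1 + c ^ 2 / 4) ^ #(P q Z) := by
  let α : Fin 2 → ℝ → ℝ := ![fun _ => 1, fun u => u / 2]
  let β : Fin 2 → ℝ → ℝ := ![fun u => 3 / 5 + 2 / 5 * u, fun u => 4 / 5 - 3 / 10 * u]
  have h1 := half h hf hc hU hZ hb hb' (α := α) fun u v => by simp [α]; ring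
  have h2 := half h hg hc hU' hZ' ha ha' (α := β) fun u v => by simp [β]; ring
  have A : Cnt μ (fun x => M2 (f x) (g x)) (P q Z) = Ex (gw q μ) fun y =>
      ∑ σ : P q Z → Fin 2, Ex (μ b) (fun x => ∏ e : P q Z, α (σ e) (f (update (pt y e) b x))) *
        Ex (μ a) fun x => ∏ e : P q Z, β (σ e) (g (update (pt y e) a x)) := by
    unfold Cnt gw
    rw [Ex_update (i := b) (Pr.pw fun _ => h b), Ex_update (i := a) (Pr.pw fun _ => h a)]
    refine congrArg _ (funext fun y => ?_)
    simp only [← Ex_coord (fun _ : Fin (q + 2) => h b) 0, ← Ex_coord (fun _ : Fin (q + 2) => h a) 0]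
    simp only [← Ex_mul, ← Ex_sum]
    refine congrArg _ (funext fun u => ?_)
    simp only [← Ex_mul', ← Ex_sum, ← prod_mul_distrib]
    refine congrArg _ (funext fun v => ?_)
    rw [← Fintype.piFinset_univ, ← prod_univ_sum (fun _ => univ) fun (e : P q Z) s =>
      α s (f (update (pt y e) b (v 0))) * β s (g (update (pt y e) a (u 0))),
      ← prod_coe_sort (P q Z)]
    refine prod_congr rfl fun e _ => ?_
    rw [pt_update, pt_update, og, update_comm ne, of, mem_P.1 e.2 b hb', mem_P.1 e.2 a ha']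
    simp [α, β, M2]; ring
  rw [A]
  refine le_trans ((pr_gw h).mono fun y => sum_le_sum fun σ _ =>
    (fun s t => by nlinarith [sq_nonneg (s - t)] :
      ∀ s t : ℝ, s * t ≤ 2⁻¹ * s ^ 2 + 2⁻¹ * t ^ 2) _ _) ?_
  simp only [sum_add_distrib, ← mul_sum, Ex_add, Ex_mul]
  linarith

/-- the hypotheses: faces `F i`, `i ∈ A`, with small grid counts -/
structure Sm (q : ℕ) (μ : ι → X → ℝ) (A : Finset ι) (F : ι → (ι → X) → ℝ) (c : ℝ) : Prop where
  pr : ∀ j, Pr (μ j)
  ev : Even q
  one : 1 ≤ c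
  om : ∀ i ∈ A, Om (F i) i
  nn : ∀ i ∈ A, ∀ x, 0 ≤ F i x
  le : ∀ i ∈ A, ∀ x, F i x ≤ c ^ (q + 2)
  grid : ∀ i ∈ A, Cnt μ (F i) (P q (A.erase i)) ≤ c ^ #(P q (A.erase i))

variable {A I : Finset ι} {F : ι → (ι → X) → ℝ}

/-- the chain -/
theorem Sm.chain (h : Sm q μ A F c) (hZ : Z ⊆ A) {K : (ι → X) → ℝ} {D : ℝ} (hD : 0 ≤ D)
    (hK : Cnt μ K (P q Z) ≤ D ^ #(P q Z)) (I : Finset ι) (W : Finset ι) (hW : W ⊆ Z) :
    Cnt μ (fun x => (∏ i ∈ I ∩ W, F i x) * K x) (P q (Z \ W)) ≤
      (c ^ (2 * #W) * D) ^ #(P q (Z \ W)) := by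
  have c0 : 0 < c := one_pos.trans_le h.one
  induction W using Finset.induction_on with
  | empty => simpa using hK
  | insert i W hi ih =>
    have iZ := hW (mem_insert_self _ _)
    have e : Z \ W = insert i (Z \ insert i W) := by
      ext j; simp only [mem_sdiff, mem_insert, not_or]
      by_cases d : j = i
      · simp [d, iZ, hi]
      · simp [d]
    have ni : i ∉ Z \ insert i W := by simp
    have ih := ih ((subset_insert _ _).trans hW)
    rw [e, card_P_insert ni] at ih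
    set n := #(P q (Z \ insert i W))
    have key : ∀ G : (ι → X) → ℝ, Om G i → (∀ x, 0 ≤ G x) → (∀ x, G x ≤ c ^ (q + 2)) →
        Cnt μ G (P q (Z \ insert i W)) ≤ c ^ n →
        Cnt μ (fun x => G x * ((∏ i ∈ I ∩ W, F i x) * K x)) (P q (Z \ insert i W)) ≤
          (c ^ (2 * #(insert i W)) * D) ^ n := fun G a1 a2 a3 a4 => by
      refine le_of_pow_le_pow_left₀ (n := q + 2) (by omega) (by positivity)
        ((step h.pr h.ev ni a1 a2 a3).trans ?_)
      have a5 : 0 ≤ Cnt μ G (P q (Z \ insert i W)) :=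
        (pr_gw h.pr).nonneg fun _ => prod_nonneg fun _ _ => a2 _
      refine (mul_le_mul_of_nonneg_left (mul_le_mul_of_nonneg_left ih (by positivity))
        (by positivity)).trans ((mul_le_mul_of_nonneg_right (pow_le_pow_left₀ a5 (a4.trans
          (le_refl _)) _) (by positivity)).trans ?_)
      rw [card_insert_of_notMem hi]
      have : (c ^ n) ^ (q + 1) ≤ (c ^ n) ^ (q + 2) :=
        pow_le_pow_right₀ (one_le_pow₀ h.one) (by omega)
      refine (mul_le_mul_of_nonneg_right this (by positivity)).trans_eq ?_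
      simp only [mul_pow, ← pow_mul]
      rw [← mul_assoc, ← mul_assoc, ← pow_add, ← pow_add]
      congr 2; ring
    by_cases m : i ∈ I
    · have iA := hZ iZ
      have := key (F i) (h.om i iA) (h.nn i iA) (h.le i iA) (gh h.pr (h.nn i iA) c0 (h.grid i iA)
        (P_mono fun j k => mem_erase.2 ⟨fun d => ni (d ▸ k), hZ (mem_sdiff.1 k).1⟩))
      simpa only [inter_insert_of_mem m, prod_insert fun k => hi (mem_inter.1 k).2, mul_assoc]
        using this
    · have := key (fun _ => 1) (fun _ _ => rfl) (fun _ => zero_le_one)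
        (fun _ => one_le_pow₀ h.one) ((pr_gw h.pr).le_of fun _ => by
          simpa using one_le_pow₀ h.one)
      simpa only [inter_insert_of_notMem m, one_mul] using this

/-- the count of the faces `I` -/
def Lam (μ : ι → X → ℝ) (F : ι → (ι → X) → ℝ) (I : Finset ι) : ℝ :=
  Ex (pw μ) fun x => ∏ i ∈ I, F i x

theorem Cnt_empty (h : ∀ j, Pr (μ j)) (H : (ι → X) → ℝ) : Cnt μ H (P q ∅) = Ex (pw μ) H := by
  classical
  have a : ∀ x, H x = ∑ z : ι → X, H z * ∏ j, if x j = z j then (1 : ℝ) else 0 := fun x => by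
    simp only [prod_boole, mem_univ, forall_true_left]
    simp only [← funext_iff, mul_ite, mul_one, mul_zero, sum_ite_eq, mem_univ, if_true]
  unfold Cnt gw
  simp only [P_empty, prod_singleton]
  rw [funext fun y => a (pt y 0), Ex_sum]
  refine sum_congr rfl fun z _ => ?_
  rw [Ex_mul, mul_comm]
  refine congrArg (· * H z) ((Ex_prod _ fun j (v : Fin (q + 2) → X) =>
    if v 0 = z j then (1 : ℝ) else 0).trans (prod_congr rfl fun j _ => ?_))
  rw [Ex_coord (fun _ => h j) 0 fun x => if x = z j then (1 : ℝ) else 0]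
  simp [Ex]

/-- **(L)** -/
theorem Sm.lower (h : Sm q μ A F c) {η : ℝ} (hη : c ^ (2 * #A) ≤ 1 + η)
    (hm : ∀ i ∈ A, 1 - η ≤ Ex (pw μ) (F i)) (I : Finset ι) (hI : I ⊆ A) :
    1 - 20 ^ #I * η ≤ Lam μ F I := by
  have η0 : 0 ≤ η := by have := one_le_pow₀ (n := 2 * #A) h.one; linarith
  have c0 : 0 < c := one_pos.trans_le h.one
  induction I using Finset.strongInduction with | H I ih => ?_
  rcases I.eq_empty_or_nonempty with rfl | ⟨a, ha⟩
  · have : Lam μ F ∅ = 1 := (Pr.pw h.pr).const 1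
    rw [this]; simpa using η0
  rcases (I.erase a).eq_empty_or_nonempty with e | ⟨b, hb⟩
  · obtain rfl : I = {a} := by rw [← insert_erase ha, e]; rfl
    have := hm a (hI ha)
    simp only [Lam, prod_singleton, card_singleton]; linarith
  obtain ⟨ne, hb⟩ := mem_erase.1 hb
  obtain ⟨J, rfl, aJ, bJ⟩ : ∃ J, I = insert a (insert b J) ∧ a ∉ insert b J ∧ b ∉ J :=
    ⟨(I.erase a).erase b, by rw [insert_erase (mem_erase.2 ⟨ne, hb⟩), insert_erase ha],
      by rw [insert_erase (mem_erase.2 ⟨ne, hb⟩)]; exact notMem_erase _ _, notMem_erase _ _⟩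
  have aJ' : a ∉ J := fun k => aJ (mem_insert_of_mem k)
  have aA := hI ha
  have bA := hI hb
  have sZ : (A.erase a).erase b ⊆ A := (erase_subset _ _).trans (erase_subset _ _)
  have hJ : J ⊆ (A.erase a).erase b := fun j k => mem_erase.2 ⟨fun d => bJ (d ▸ k), mem_erase.2
    ⟨fun d => aJ' (d ▸ k), hI (mem_insert_of_mem (mem_insert_of_mem k))⟩⟩
  have u := h.chain sZ (by positivity) (last h.pr (h.nn a aA) (h.nn b bA) c0 (h.grid a aA)
    (h.grid b bA) (erase_subset _ _) (by rw [erase_right_comm]; exact erase_subset _ _)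
    (mem_erase.2 ⟨ne, bA⟩) (mem_erase.2 ⟨ne.symm, aA⟩) (notMem_erase _ _)
    (fun k => notMem_erase _ _ (mem_of_mem_erase k)) ne.symm (h.om a aA) (h.om b bA)) J _ Subset.rfl
  rw [sdiff_self, bot_eq_empty, Cnt_empty h.pr, card_P, card_empty, pow_zero, pow_one,
    inter_eq_left.2 hJ] at u
  have v : Ex (pw μ) (fun x => (∏ i ∈ J, F i x) * M2 (F a x) (F b x)) = 3 / 5 * Lam μ F J +
      2 / 5 * Lam μ F (insert a J) + 2 / 5 * Lam μ F (insert b J) -
        3 / 20 * Lam μ F (insert a (insert b J)) := by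
    simp only [Lam, ← Ex_mul, ← Ex_add, ← Ex_sub, prod_insert aJ, prod_insert aJ', prod_insert bJ]
    exact congrArg _ (funext fun x => by unfold M2; ring)
  have w : c ^ (2 * #((A.erase a).erase b)) * (1 + c ^ 2 / 4) ≤ 5 / 4 * (1 + η) := by
    have e : #A = #((A.erase a).erase b) + 2 := by
      rw [card_erase_of_mem (mem_erase.2 ⟨ne, bA⟩), card_erase_of_mem aA]
      have := card_le_card (insert_subset aA (singleton_subset_iff.2 bA))
      rw [card_pair ne.symm] at this; omega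
    have a1 : c ^ (2 * #((A.erase a).erase b)) ≤ c ^ (2 * #A) := pow_le_pow_right₀ h.one (by omega)
    have a2 : c ^ (2 * #((A.erase a).erase b) + 2) ≤ c ^ (2 * #A) :=
      pow_le_pow_right₀ h.one (by omega)
    rw [pow_add] at a2; linarith
  have s1 : J ⊂ insert b J := ssubset_insert bJ
  have s2 : insert b J ⊂ insert a (insert b J) := ssubset_insert aJ
  have s3 : insert a J ⊂ insert a (insert b J) := by
    rw [insert_comm]; exact ssubset_insert fun k => (mem_insert.1 k).elim ne bJ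
  have i1 := ih J (s1.trans s2) ((s1.trans s2).subset.trans hI)
  have i2 := ih _ s2 (s2.subset.trans hI)
  have i3 := ih _ s3 (s3.subset.trans hI)
  rw [card_insert_of_notMem bJ, pow_succ] at i2
  rw [card_insert_of_notMem aJ', pow_succ] at i3
  rw [card_insert_of_notMem aJ, card_insert_of_notMem bJ, pow_succ, pow_succ]
  have : η ≤ 20 ^ #J * η := le_mul_of_one_le_left η0 (one_le_pow₀ (by norm_num))
  nlinarith

end Crest.Agent.N49.L
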