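import Crest.Agent.N49.L.Grid

/-!
# Row 49 (helper27): telescoping a product, popular backgrounds, cylinders from grids
-/

set_option autoImplicit false
open Finset Function

namespace Crest.Agent.N49.L

variable {Ω κ : Type*} [Fintype Ω] [DecidableEq κ] {ρ : Ω → ℝ}

/-- **telescoping** under an arbitrary weight `ρ ≥ 0` -/
theorem tele (hρ : ∀ ω, 0 ≤ ρ ω) {F : κ → Ω → ℝ} {B γ : ℝ} (hB : 1 ≤ B) (hγ : 0 < γ)
    {T : Finset κ} (hT : T.Nonempty) (h0 : ∀ e ∈ T, ∀ ω, 0 ≤ F e ω) (h1 : ∀ e ∈ T, ∀ ω, F e ω ≤ B)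
    (h : γ ^ #T * Ex ρ (fun _ => 1) ≤ Ex ρ fun ω => ∏ e ∈ T, F e ω) :
    ∃ T' ⊆ T, ∃ e ∈ T, e ∉ T' ∧
      γ * Ex ρ (fun ω => ∏ e ∈ T', F e ω) ≤ Ex ρ (fun ω => F e ω * ∏ e ∈ T', F e ω) ∧
      γ ^ #T * Ex ρ (fun _ => 1) ≤ B ^ #T * Ex ρ fun ω => ∏ e ∈ T', F e ω := by
  have A : ∀ S ⊆ T, S.Nonempty → γ ^ #S * Ex ρ (fun _ => 1) ≤ Ex ρ (fun ω => ∏ e ∈ S, F e ω) →
      ∃ T' ⊆ T, ∃ e ∈ T, e ∉ T' ∧
        γ * Ex ρ (fun ω => ∏ e ∈ T', F e ω) ≤ Ex ρ fun ω => F e ω * ∏ e ∈ T', F e ω := by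
    intro S
    induction S using Finset.induction_on with
    | empty => intro _ k; exact absurd k not_nonempty_empty
    | insert a S ha ih =>
      intro s _ k
      have s' := (subset_insert _ _).trans s
      simp only [prod_insert ha, card_insert_of_notMem ha] at k
      by_cases c : γ * Ex ρ (fun ω => ∏ e ∈ S, F e ω) ≤ Ex ρ fun ω => F a ω * ∏ e ∈ S, F e ω
      · exact ⟨S, s', a, s (mem_insert_self _ _), ha, c⟩
      · have := k.trans_lt (not_le.1 c)
        rw [pow_succ', mul_assoc, mul_lt_mul_iff_right₀ hγ] at this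
        refine ih s' (S.eq_empty_or_nonempty.resolve_left ?_) this.le
        rintro rfl; simp at this
  obtain ⟨T', s, e, a, b, c⟩ := A T Subset.rfl hT h
  refine ⟨T', s, e, a, b, c, h.trans ?_⟩
  rw [← Ex_mul]
  refine sum_le_sum fun ω _ => mul_le_mul_of_nonneg_left ?_ (hρ ω)
  dsimp only
  rw [← prod_sdiff s]
  refine mul_le_mul_of_nonneg_right ?_ (prod_nonneg fun e k => h0 e (s k) ω)
  refine (prod_le_prod (fun e k => h0 e (mem_sdiff.1 k).1 ω)
    fun e k => h1 e (mem_sdiff.1 k).1 ω).trans ?_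
  rw [prod_const]
  exact pow_le_pow_right₀ hB (card_le_card sdiff_subset)

/-- **popularity**: a bounded function with a positive mean is large on a set of positive weight -/
theorem Pr.popular (h : Pr ρ) {G : Ω → ℝ} {β M : ℝ} (hβ : 0 ≤ β) (hM : ∀ ω, G ω ≤ M)
    (k : 2 * β ≤ Ex ρ G) : β ≤ M * ∑ ω with β ≤ G ω, ρ ω := by
  classical
  have : Ex ρ G ≤ Ex ρ fun ω => M * (if β ≤ G ω then 1 else 0) + β := h.mono fun ω => by
    have := hM ω
    split_ifs with c
    · linarith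
    · have := not_le.1 c; linarith
  rw [Ex_add, Ex_mul, h.const] at this
  simp only [Ex, mul_ite, mul_one, mul_zero, ← sum_filter] at this
  unfold Ex at k; linarith

/-- some background is good -/
theorem Pr.exists_le (h : Pr ρ) (G : Ω → ℝ) : ∃ ω, 0 < ρ ω ∧ Ex ρ G ≤ G ω := by
  by_contra c
  push Not at c
  obtain ⟨ω, -, k⟩ := exists_lt_of_sum_lt (s := univ) (f := fun _ : Ω => (0 : ℝ)) (g := ρ)
    (by rw [h.one]; simp)
  have : ∑ ω, ρ ω * G ω < ∑ ω, ρ ω * Ex ρ G := sum_lt_sum (fun ω _ => by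
      rcases (h.nn ω).eq_or_lt with e | e
      · simp [← e]
      · exact mul_le_mul_of_nonneg_left (c ω e).le e.le)
    ⟨ω, mem_univ _, mul_lt_mul_of_pos_left (c ω k) k⟩
  rw [← sum_mul, h.one, one_mul] at this
  exact lt_irrefl _ this

variable {X ι : Type*} [Fintype X] [Fintype ι] [DecidableEq ι] {q : ℕ} {μ : ι → X → ℝ}

/-- put the point `x` at the position `e` of the grid -/
def put (y : ι → Fin (q + 2) → X) (e : ι → Fin (q + 2)) (x : ι → X) : ι → Fin (q + 2) → X :=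
  fun j => update (y j) (e j) (x j)

omit [Fintype X] [Fintype ι] [DecidableEq ι] in
theorem pt_put (y : ι → Fin (q + 2) → X) (e e' : ι → Fin (q + 2)) (x : ι → X) (j : ι) :
    pt (put y e x) e' j = if e' j = e j then x j else y j (e' j) := by
  simp only [pt, put, update_apply]

omit [Fintype X] [Fintype ι] [DecidableEq ι] in
theorem pt_put_self (y : ι → Fin (q + 2) → X) (e : ι → Fin (q + 2)) (x : ι → X) :
    pt (put y e x) e = x := funext fun j => by rw [pt_put, if_pos rfl]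

omit [Fintype X] [DecidableEq ι] in
theorem gw_put (y : ι → Fin (q + 2) → X) (e : ι → Fin (q + 2)) (x : ι → X) :
    gw q μ (put y e x) * pw μ (pt y e) = gw q μ y * pw μ x := by
  simp only [gw, pw.eq_1 μ, pw.eq_1 fun j => pw fun _ : Fin (q + 2) => μ j, ← prod_mul_distrib]
  exact prod_congr rfl fun j _ => pw_update (fun _ => μ j) (y j) (e j) (x j)

/-- resampling of one point of the grid -/
theorem Ex_put (h : ∀ j, Pr (μ j)) (e : ι → Fin (q + 2)) (F : (ι → Fin (q + 2) → X) → ℝ) :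
    Ex (gw q μ) F = Ex (gw q μ) fun y => Ex (pw μ) fun x => F (put y e x) := by
  have a : Ex (gw q μ) F = ∑ p : (ι → Fin (q + 2) → X) × (ι → X), gw q μ p.1 * pw μ p.2 * F p.1 := by
    rw [Fintype.sum_prod_type]
    refine sum_congr rfl fun y _ => ?_
    simp only [← sum_mul, ← mul_sum, (Pr.pw h).one, mul_one]
  have b : (Ex (gw q μ) fun y => Ex (pw μ) fun x => F (put y e x)) =
      ∑ p : (ι → Fin (q + 2) → X) × (ι → X), gw q μ p.1 * pw μ p.2 * F (put p.1 e p.2) := by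
    rw [Fintype.sum_prod_type]
    refine sum_congr rfl fun y _ => ?_
    simp only [Ex, mul_sum, mul_assoc]
  rw [a, b]
  have inv : Involutive fun p : (ι → Fin (q + 2) → X) × (ι → X) => (put p.1 e p.2, pt p.1 e) :=
    fun p => Prod.ext (funext fun j => by simp [put, pt]) (pt_put_self ..)
  exact (Fintype.sum_bijective _ inv.bijective _ _ fun p => by simp only [gw_put]).symm

/-- **sifting**: a large grid count gives a cylinder `∏ e' ∈ T', f (pt (put y e x) e')` (every factor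
omits a coordinate of `x`, see `om_put`) on which `f` has average `≥ (1 - η) γ` -/
theorem sift (h : ∀ j, Pr (μ j)) {f : (ι → X) → ℝ} {B γ η : ℝ} (hB : 1 ≤ B) (hγ : 0 < γ)
    (hη : 0 ≤ η) (h0 : ∀ x, 0 ≤ f x) (h1 : ∀ x, f x ≤ B) {T : Finset (ι → Fin (q + 2))}
    (hT : T.Nonempty) (k : γ ^ #T ≤ Cnt μ f T) : ∃ T' ⊆ T, ∃ e ∈ T, e ∉ T' ∧
      η * γ * (γ / B) ^ #T ≤ Ex (gw q μ) fun y => Ex (pw μ) fun x =>
        (f x - (1 - η) * γ) * ∏ e' ∈ T', f (pt (put y e x) e') := by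
  obtain ⟨T', s, e, a, b, c, d⟩ := tele (pr_gw h).nn (F := fun e y => f (pt y e)) hB hγ hT
    (fun _ _ _ => h0 _) (fun _ _ _ => h1 _) (by rw [(pr_gw h).const, mul_one]; exact k)
  refine ⟨T', s, e, a, b, ?_⟩
  have := Ex_put h e fun y => (f (pt y e) - (1 - η) * γ) * ∏ e' ∈ T', f (pt y e')
  simp only [pt_put_self] at this
  rw [← this]
  simp only [sub_mul _ ((1 - η) * γ), Ex_sub, Ex_mul]
  rw [(pr_gw h).const, mul_one, ← div_le_iff₀' (by positivity), ← div_pow] at d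
  have := mul_le_mul_of_nonneg_left d (mul_nonneg hη hγ.le)
  linarith

omit [Fintype X] [Fintype ι] in
theorem om_put (f : (ι → X) → ℝ) (y : ι → Fin (q + 2) → X) {e e' : ι → Fin (q + 2)} {j : ι}
    (h : e' j ≠ e j) : Om (fun x => f (pt (put y e x) e')) j := fun x v => congrArg f (funext fun i => by
  rw [pt_put, pt_put]
  by_cases c : i = j
  · rw [c, if_neg h, if_neg h]
  · rw [update_of_ne c])

end Crest.Agent.N49.L
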